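import Vale.Agent.P159.Susceptibility

/-!
# P159: a power lower bound on the correlation length of the square-lattice XY model
-/

namespace Vale.Agent.Results.P159.CorrelationLengthLower

open Filter Vale.Agent.P159
open scoped Topology

/-- For the XY model on `ℤ²` the finite-volume correlations converge to `C_b(r)`, the critical point
is positive, and if `C_b` decays at rate `μ` then `b_c ≥ b + c μ^(2 - η)`, with `η, c > 0` depending
only on an upper bound `B` for `b`. -/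
theorem result :
    (∀ b : ℝ, 0 ≤ b → ∀ r : ℕ,
      Tendsto (fun R : ℕ => corr b (box R) (0, 0) ((r : ℤ), 0)) atTop (𝓝 (twoPoint b r))) ∧
    0 < critical ∧
    ∀ B : ℝ, ∃ η c : ℝ, 0 < η ∧ η < 1 ∧ 0 < c ∧ ∀ b μ : ℝ, 0 ≤ b → b ≤ B → 0 < μ → μ ≤ 1 →
      HasRate b μ → ENNReal.ofReal (b + c * μ ^ (2 - η)) ≤ critical := by
  have main : ∀ B : ℝ, ∃ η c : ℝ, 0 < η ∧ η < 1 ∧ 0 < c ∧ ∀ b μ : ℝ, 0 ≤ b → b ≤ B → 0 < μ → μ ≤ 1 →
      HasRate b μ → ENNReal.ofReal (b + c * μ ^ (2 - η)) ≤ critical := by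
    intro B
    set s := 1 / (128 * |B| + 2) with hs
    have hs0 : 0 < s := by positivity
    have hs2 : s ≤ 1 / 2 := by
      rw [hs]; exact one_div_le_one_div_of_le two_pos (by linarith [abs_nonneg B])
    refine ⟨s / 4, 1 / (2 * (512 * Real.exp 1)), by positivity, by linarith, by positivity,
      fun b μ hb hbB hμ0 hμ1 hr => le_sInf ?_⟩
    rintro _ ⟨b', ⟨hb', hcrit⟩, rfl⟩
    refine ENNReal.ofReal_le_ofReal ?_
    by_contra hlt
    rw [not_le] at hlt
    rcases le_or_gt b' b with hle | hgt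
    · obtain ⟨K, hK⟩ := hr
      exact hcrit μ hμ0 ⟨K, fun r => (twoPoint_mono hb'.le hle r).trans (hK r)⟩
    · set X := 512 * Real.exp 1 * μ⁻¹ ^ (2 - s / 4 : ℝ) with hX
      have hs1 : s * (128 * |B| + 2) ≤ 1 := le_of_eq (one_div_mul_cancel (by positivity))
      have hXb := susc_le hb (hbB.trans (le_abs_self B)) hs0 hs1 hμ0 hμ1 hr
      have hp : μ ^ (2 - s / 4 : ℝ) * μ⁻¹ ^ (2 - s / 4 : ℝ) = 1 := by
        rw [← Real.mul_rpow hμ0.le (by positivity), mul_inv_cancel₀ hμ0.ne', Real.one_rpow]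
      have hlt2 : 2 * (b' - b) * X < 1 := by
        have h1 : b' - b < 1 / (2 * (512 * Real.exp 1)) * μ ^ (2 - s / 4 : ℝ) := by linarith
        have h2 := mul_lt_mul_of_pos_right h1 (show 0 < 2 * X by positivity)
        have h3 : 1 / (2 * (512 * Real.exp 1)) * μ ^ (2 - s / 4 : ℝ) * (2 * X) = 1 := by
          have e : 1 / (2 * (512 * Real.exp 1)) * (2 * (512 * Real.exp 1)) = 1 :=
            one_div_mul_cancel (by positivity)
          rw [hX]
          linear_combination (μ ^ (2 - s / 4 : ℝ) * μ⁻¹ ^ (2 - s / 4 : ℝ)) * e + hp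
        linarith
      obtain ⟨ν, hν, hrν⟩ := rate_of_susc (b := b + (b' - b)) (by linarith)
        (susc_step hb (sub_nonneg.2 hgt.le) hXb hlt2)
      rw [add_sub_cancel] at hrν
      exact hcrit ν hν hrν
  refine ⟨fun b hb r => tendsto_twoPoint hb r, ?_, main⟩
  obtain ⟨η, c, -, -, hc, h⟩ := main 1
  have h0 : HasRate 0 1 := by
    refine ⟨1, fun r => ?_⟩
    rcases Nat.eq_zero_or_pos r with rfl | hr
    · simpa using twoPoint_le_one 0 0
    refine (ciSup_le fun R => le_of_eq ?_).trans (by positivity : (0 : ℝ) ≤ _)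
    by_cases hm : ((0 : ℤ), (0 : ℤ)) ∈ box R ∧ ((r : ℤ), (0 : ℤ)) ∈ box R
    · rw [corr_of_mem 0 hm.1 hm.2]
      refine xyCorr_isolated (fun e => ?_) fun a => by simp [lat, wt]
      simp at e; omega
    · simp [corr, hm]
  refine lt_of_lt_of_le ?_ (h 0 1 le_rfl zero_le_one one_pos le_rfl h0)
  simpa using hc

end Vale.Agent.Results.P159.CorrelationLengthLower
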